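import Vale.Agent.P204.Closed.Transfer

/-!
P204: Donaldson's tamed-to-compatible question, affirmative answer on every closed four-manifold.
-/

noncomputable section

namespace Vale.Agent.Results.P204.Donaldson

universe u

/-- If a smooth almost complex structure on a closed four-manifold is tamed by a symplectic form,
then some symplectic form is compatible with it. -/
theorem result : Vale.Agent.P204.Closed.TamedToCompatibleOn.{u} (EuclideanSpace ℝ (Fin 4)) :=
  Vale.Agent.P204.Closed.tamedToCompatibleOn

end Vale.Agent.Results.P204.Donaldson
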